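import Mathlib
import Vale.Agent.P067.AllDims
import Vale.Agent.P067.BldLink
import Vale.Agent.P067.CongrVanish

open Vale.Agent.P067

theorem Vale.Agent.Results.P067.AllDimensions.result (d : ℕ) (hd : 1 ≤ d) :
    ∃ (D : ℕ) (ε : ℝ) (X : ℕ → Finset (Finset ℕ)), 0 < ε ∧
      Filter.Tendsto (fun m => (faces (X m) 0).card) Filter.atTop Filter.atTop ∧
      ∀ m, (∀ t ∈ X m, t.card = d + 1) ∧ (∀ v, ((X m).filter (fun t => v ∈ t)).card ≤ D) ∧
        IsConnectedCx (X m) ∧ IsCobExpander (X m) d ε :=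
  allDims_of thinLink vanishAll d hd
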