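import Mathlib
import Vale.Agent.P067.Defs
import Vale.Agent.P067.TopBetti

open Vale.Agent.P067

theorem Vale.Agent.Results.P067.TopCohomologyLinear.result (m D : ℕ) (ε : ℝ) (hε : 0 < ε) :
    ∃ c : ℝ, 0 < c ∧ ∀ (V : Type) [DecidableEq V] (T : Finset (Finset V)),
      (∀ t ∈ T, t.card = m + 2) → (∀ v : V, (T.filter (fun t => v ∈ t)).card ≤ D) →
      IsCobExpander T (m + 1) ε →
      c * ((faces T 0).card : ℝ) ≤ (topBetti T m : ℝ) + 1 :=
  top_betti_linear m D ε hε
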